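import Mathlib
import Vale.Agent.P075.Defs
import Vale.Agent.P075.Final

set_option autoImplicit false

namespace Vale.Agent.Results.P075.Main

/-- The dyadic triangular Hilbert form is bounded at the symmetric point `(3,3,3)`, uniformly in
the finite set of scales and in the coefficients; the bound even holds for the sum of the
absolute values of all the local forms. At each scale only finitely many triples contribute, so
the sums over triples are finite sums. -/
theorem result : ∃ C : ℝ, ∀ F0 F1 F2 : ℝ × ℝ → ℝ, P075.Adm F0 → P075.Adm F1 → P075.Adm F2 →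
    (∀ k : ℤ, {n : P075.Trip | P075.LI k n F0 F1 F2 ≠ 0}.Finite) ∧
    (∀ S : Finset ℤ, ∑ k ∈ S, ∑' n : P075.Trip, |P075.LI k n F0 F1 F2| ≤
      C * (P075.nrm3 F0 * P075.nrm3 F1 * P075.nrm3 F2)) ∧
    (∀ (S : Finset ℤ) (ε : ℤ → ℝ), (∀ k ∈ S, |ε k| ≤ 1) →
      |P075.Lam S ε F0 F1 F2| ≤ C * (P075.nrm3 F0 * P075.nrm3 F1 * P075.nrm3 F2)) := by
  refine ⟨2688, fun F0 F1 F2 h0 h1 h2 => ⟨fun k => _root_.P075.finite_LI h0 k, fun S => ?_,
    fun S ε hε => ?_⟩⟩
  · exact _root_.P075.TT_le h0 h1 h2 S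
  · exact le_trans (_root_.P075.Lam_le hε h0) (_root_.P075.TT_le h0 h1 h2 S)

end Vale.Agent.Results.P075.Main
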